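import Vale.Agent.P248.H432.S.Spec

/-!
P248: the cell inequality for the coordinates in `T`.
-/

open MeasureTheory Set

namespace Vale.Agent.P248.H432.S

open Vale.Agent.P248.H242 (ins sec)

theorem b1_sec_closed {n : ℕ} {A : Set (Fin (n + 1) → ℝ)} (hA : IsCompact A) (i : Fin (n + 1)) :
    IsClosed (sec i A) := hA.isClosed.preimage (H242.cont_ins i)

theorem b1_sec_fin {n : ℕ} {A : Set (Fin (n + 1) → ℝ)} (hA : IsCompact A) (i : Fin (n + 1)) :
    volume (sec i A) ≠ ⊤ := by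
  have h1 : IsCompact ((fun x : Fin (n + 1) → ℝ => fun j => x (i.succAbove j)) '' A) :=
    hA.image (by fun_prop)
  have h2 : sec i A ⊆ (fun x : Fin (n + 1) → ℝ => fun j => x (i.succAbove j)) '' A := by
    intro z hz
    exact ⟨ins i z, hz, by funext j; exact H242.ins_succ i z j⟩
  exact ((measure_mono h2).trans_lt h1.measure_lt_top).ne

/-- the part where the coordinates in `T` are positive -/
def b1_op {n : ℕ} (T : Finset (Fin n)) (A : Set (Fin n → ℝ)) : Set (Fin n → ℝ) :=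
  A ∩ {x | ∀ i ∈ T, 0 < x i}

theorem b1_vol_op {n : ℕ} {T : Finset (Fin n)} {A : Set (Fin n → ℝ)}
    (hp : ∀ x ∈ A, ∀ i ∈ T, 0 ≤ x i) : volume (b1_op T A) = volume A := by
  refine le_antisymm (measure_mono inter_subset_left) ?_
  have h1 : A ⊆ b1_op T A ∪ ⋃ i, {x : Fin n → ℝ | x i = 0} := by
    intro x hx
    by_cases h2 : ∀ i ∈ T, 0 < x i
    · exact Or.inl ⟨hx, h2⟩
    · push Not at h2
      obtain ⟨i, hiT, hi⟩ := h2
      exact Or.inr (mem_iUnion.2 ⟨i, le_antisymm hi (hp x hx i hiT)⟩)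
  refine (measure_mono h1).trans ((measure_union_le _ _).trans ?_)
  have h2 : volume (⋃ i, {x : Fin n → ℝ | x i = 0}) = 0 := by
    rw [measure_iUnion_null_iff]
    intro i
    exact Measure.pi_hyperplane (fun _ => volume) i 0
  rw [h2, add_zero]

theorem b1_meas_op {n : ℕ} {T : Finset (Fin n)} {A : Set (Fin n → ℝ)} (h : IsClosed A) :
    MeasurableSet (b1_op T A) := by
  refine h.measurableSet.inter ?_
  have e : {x : Fin n → ℝ | ∀ i ∈ T, 0 < x i} = ⋂ i ∈ T, {x | 0 < x i} := by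
    ext x
    simp
  rw [e]
  exact Finset.measurableSet_biInter T fun i _ =>
    measurableSet_lt measurable_const (measurable_pi_apply i)

theorem b1_sec_pos {n : ℕ} {T : Finset (Fin (n + 1))} {A : Set (Fin (n + 1) → ℝ)}
    (hp : ∀ x ∈ A, ∀ i ∈ T, 0 ≤ x i) (i : Fin (n + 1)) :
    ∀ z ∈ sec i A, ∀ j ∈ del i T, 0 ≤ z j := by
  intro z hz j hj
  have h1 : i.succAbove j ∈ T := by simpa [del] using hj
  have h2 := hp _ hz _ h1
  rwa [H242.ins_succ] at h2

/-- the cell -/
def b1_cell {n : ℕ} (T : Finset (Fin (n + 1))) (i : Fin (n + 1)) (x : Fin (n + 1) → ℝ)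
    (A : Set (Fin (n + 1) → ℝ)) : Set (Fin (n + 1) → ℝ) :=
  {w | (w i, fun j => w (i.succAbove j)) ∈
    H242.cell' (x i) (fun j => x (i.succAbove j)) (b1_op (del i T) (sec i A))}

theorem b1_meas_cell {n : ℕ} {T : Finset (Fin (n + 1))} (i : Fin (n + 1)) (x : Fin (n + 1) → ℝ)
    {A : Set (Fin (n + 1) → ℝ)} (hA : IsCompact A) : MeasurableSet (b1_cell T i x A) := by
  have h1 : Measurable fun w : Fin (n + 1) → ℝ => (w i, fun j => w (i.succAbove j)) := by
    fun_prop
  exact h1 (H242.meas_cell' _ _ (b1_meas_op (b1_sec_closed hA i)))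

theorem b1_vol_cell {n : ℕ} {T : Finset (Fin (n + 1))} (i : Fin (n + 1)) {x : Fin (n + 1) → ℝ}
    {A : Set (Fin (n + 1) → ℝ)} (hA : IsCompact A) (hp : ∀ x ∈ A, ∀ i ∈ T, 0 ≤ x i)
    (hx : 0 < x i) :
    volume (b1_cell T i x A) = ENNReal.ofReal (x i / (n + 1)) * volume (sec i A) := by
  have hm : MeasurableSet (b1_op (del i T) (sec i A)) := b1_meas_op (b1_sec_closed hA i)
  rw [← b1_vol_op (b1_sec_pos hp i), ← H242.vol_cell' hx (fun j => x (i.succAbove j)) hm]
  have h1 := (volume_preserving_piFinSuccAbove (fun _ : Fin (n + 1) => ℝ) i).measure_preimage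
    (H242.meas_cell' (x i) (fun j => x (i.succAbove j)) hm).nullMeasurableSet
  rw [← h1]
  rfl

theorem b1_cell_spec {n : ℕ} {T : Finset (Fin (n + 1))} {i : Fin (n + 1)}
    {x w : Fin (n + 1) → ℝ} {A : Set (Fin (n + 1) → ℝ)}
    (hc : Convex ℝ A) (hx : x ∈ A) (hw : w ∈ b1_cell T i x A) :
    w ∈ A ∧ ∀ j ∈ del i T, w i * x (i.succAbove j) < w (i.succAbove j) * x i := by
  obtain ⟨⟨h0, h1⟩, h2, h3⟩ := hw
  simp only at h0 h1 h2 h3
  have ha : 0 < x i := h0.trans h1
  obtain ⟨t, ht⟩ : ∃ t, t = w i / x i := ⟨_, rfl⟩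
  have ht0 : 0 ≤ t := by rw [ht]; positivity
  have ht1 : 0 < 1 - t := by
    rw [ht, sub_pos, div_lt_one ha]
    exact h1
  rw [← ht] at h2 h3
  obtain ⟨z, hz⟩ : ∃ z : Fin n → ℝ, z = (1 - t)⁻¹ • ((fun j => w (i.succAbove j)) -
    t • fun j => x (i.succAbove j)) := ⟨_, rfl⟩
  rw [← hz] at h2 h3
  have hzw : ∀ j, w (i.succAbove j) = (1 - t) * z j + t * x (i.succAbove j) := by
    intro j
    have : z j = (1 - t)⁻¹ * (w (i.succAbove j) - t * x (i.succAbove j)) := by
      rw [hz]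
      simp
    rw [this, mul_inv_cancel_left₀ ht1.ne']
    ring
  have hwi : w i = t * x i := by
    rw [ht, div_mul_cancel₀ _ ha.ne']
  refine ⟨?_, fun j hj => ?_⟩
  · have h4 := hc h2 hx ht1.le ht0 (by ring)
    convert h4 using 1
    funext k
    rcases Fin.eq_self_or_eq_succAbove i k with rfl | ⟨j, rfl⟩
    · simp [H242.ins_self, hwi]
    · simp [H242.ins_succ, hzw]
  · have h4 : 0 < z j := h3 j hj
    rw [hwi, hzw j]
    nlinarith [mul_pos (mul_pos ht1 h4) ha]

/-- `∑ x i |A ∩ {x i = 0}| ≤ (n + 1) |A|`, the sum over the nonnegative coordinates `T` -/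
theorem cell_sum {n : ℕ} {A : Set (Fin (n + 1) → ℝ)} (hA : IsCompact A) (hc : Convex ℝ A)
    {T : Finset (Fin (n + 1))} (hp : ∀ x ∈ A, ∀ i ∈ T, 0 ≤ x i) {x : Fin (n + 1) → ℝ}
    (hx : x ∈ A) :
    ∑ i ∈ T, x i * vol (sec i A) ≤ ((n : ℝ) + 1) * vol A := by
  classical
  have hpos := hp x hx
  obtain ⟨I, hI⟩ : ∃ I : Finset (Fin (n + 1)), ∀ i, i ∈ I ↔ i ∈ T ∧ 0 < x i :=
    ⟨T.filter fun i => 0 < x i, fun i => by simp⟩
  have hIT : I ⊆ T := fun i hi => ((hI i).1 hi).1
  have hdisj : ((I : Set (Fin (n + 1)))).PairwiseDisjoint fun i => b1_cell T i x A := by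
    intro i hi k hk hik
    rw [Function.onFun, Set.disjoint_left]
    intro w hw1 hw2
    obtain ⟨j, hj⟩ := (Fin.eq_self_or_eq_succAbove i k).resolve_left fun e => hik e.symm
    obtain ⟨l, hl⟩ := (Fin.eq_self_or_eq_succAbove k i).resolve_left hik
    have hj' : j ∈ del i T := by
      simp only [del, Finset.mem_filter, Finset.mem_univ, true_and]
      rw [← hj]
      exact hIT hk
    have hl' : l ∈ del k T := by
      simp only [del, Finset.mem_filter, Finset.mem_univ, true_and]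
      rw [← hl]
      exact hIT hi
    have h1 := (b1_cell_spec hc hx hw1).2 j hj'
    have h2 := (b1_cell_spec hc hx hw2).2 l hl'
    rw [← hj] at h1
    rw [← hl] at h2
    linarith
  have h1 : volume (⋃ i ∈ I, b1_cell T i x A) = ∑ i ∈ I, volume (b1_cell T i x A) :=
    measure_biUnion_finset hdisj fun i _ => b1_meas_cell i x hA
  have h2 : (⋃ i ∈ I, b1_cell T i x A) ⊆ A := by
    intro w hw
    simp only [mem_iUnion] at hw
    obtain ⟨i, _, hw⟩ := hw
    exact (b1_cell_spec hc hx hw).1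
  have h3 := measure_mono (μ := volume) h2
  rw [h1] at h3
  have h4 := ENNReal.toReal_mono hA.measure_lt_top.ne h3
  have hcell : ∀ i ∈ I, volume (b1_cell T i x A) =
      ENNReal.ofReal (x i / (n + 1)) * volume (sec i A) :=
    fun i hi => b1_vol_cell i hA hp ((hI i).1 hi).2
  rw [ENNReal.toReal_sum fun i hi => by
    rw [hcell i hi]
    exact ENNReal.mul_ne_top ENNReal.ofReal_ne_top (b1_sec_fin hA i)] at h4
  have h5 : ∑ i ∈ I, (volume (b1_cell T i x A)).toReal =
      ∑ i ∈ I, x i / (n + 1) * (volume (sec i A)).toReal := by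
    refine Finset.sum_congr rfl fun i hi => ?_
    rw [hcell i hi, ENNReal.toReal_mul, ENNReal.toReal_ofReal (by
      have := hpos i (hIT hi)
      positivity)]
  rw [h5] at h4
  have h6 : ∑ i ∈ T, x i * vol (sec i A) =
      ((n : ℝ) + 1) * ∑ i ∈ I, x i / (n + 1) * (volume (sec i A)).toReal := by
    rw [Finset.mul_sum]
    have h7 : ∀ i ∈ I, ((n : ℝ) + 1) * (x i / (n + 1) * (volume (sec i A)).toReal) =
        x i * vol (sec i A) := by
      intro i _
      rw [vol]
      field_simp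
    rw [Finset.sum_congr rfl h7]
    symm
    refine Finset.sum_subset hIT fun i hiT hi => ?_
    have : x i = 0 := le_antisymm (not_lt.1 fun h8 => hi ((hI i).2 ⟨hiT, h8⟩)) (hpos i hiT)
    rw [this, zero_mul]
  rw [h6]
  exact mul_le_mul_of_nonneg_left h4 (by positivity)

end Vale.Agent.P248.H432.S
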