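import Vale.Agent.P248.H432.S.Spec

/-!
P248: the volume of a body invariant under the sign changes of the coordinates in `T` is
`2 ^ #T` times the volume of its part with nonnegative coordinates in `T`.
-/

open MeasureTheory Set

namespace Vale.Agent.P248.H432.S

/-- the change of the sign of one coordinate -/
def b2_refl {n : ℕ} (i : Fin n) : (Fin n → ℝ) → Fin n → ℝ :=
  fun x j => (if j = i then (fun t : ℝ => -t) else fun t => t) (x j)

theorem b2_refl_mp {n : ℕ} (i : Fin n) :
    MeasurePreserving (b2_refl i) (volume : Measure (Fin n → ℝ)) volume := by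
  refine volume_preserving_pi (f := fun j => if j = i then (fun t : ℝ => -t) else fun t => t) ?_
  intro j
  by_cases h : j = i
  · simp only [h, if_true]
    exact Measure.measurePreserving_neg (volume : Measure ℝ)
  · simp only [h, if_false]
    exact MeasurePreserving.id _

theorem b2_refl_self {n : ℕ} (i : Fin n) (x : Fin n → ℝ) : b2_refl i x i = -x i := by
  simp [b2_refl]

theorem b2_refl_ne {n : ℕ} {i j : Fin n} (h : j ≠ i) (x : Fin n → ℝ) : b2_refl i x j = x j := by
  simp [b2_refl, h]

theorem b2_measurable_pos {n : ℕ} {K : Set (Fin n → ℝ)} (hK : MeasurableSet K)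
    (T : Finset (Fin n)) : MeasurableSet (pos T K) := by
  refine hK.inter ?_
  have : {x : Fin n → ℝ | ∀ i ∈ T, 0 ≤ x i} = ⋂ i ∈ T, {x | 0 ≤ x i} := by
    ext x; simp
  rw [this]
  exact Finset.measurableSet_biInter _ fun i _ =>
    measurableSet_le measurable_const (measurable_pi_apply i)

/-- halving one coordinate -/
theorem b2_half {n : ℕ} {A : Set (Fin n → ℝ)} (hA : MeasurableSet A) (i : Fin n)
    (h : ∀ x ∈ A, b2_refl i x ∈ A) :
    volume A = 2 * volume (A ∩ {x | 0 ≤ x i}) := by
  have h0 : MeasurableSet {x : Fin n → ℝ | 0 ≤ x i} :=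
    measurableSet_le measurable_const (measurable_pi_apply i)
  have h1 : MeasurableSet {x : Fin n → ℝ | 0 < x i} :=
    measurableSet_lt measurable_const (measurable_pi_apply i)
  have hz : (volume : Measure (Fin n → ℝ)) {x | x i = 0} = 0 := by
    rw [volume_pi]
    exact Measure.pi_hyperplane (fun _ => volume) i 0
  have e1 : volume (A ∩ {x | 0 ≤ x i}) = volume (A ∩ {x | 0 < x i}) := by
    apply measure_congr
    have : ∀ᵐ x : Fin n → ℝ, x i ≠ 0 := by
      rw [ae_iff]
      simpa using hz
    filter_upwards [this] with x hx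
    apply propext
    constructor
    · rintro ⟨ha, hb⟩
      exact ⟨ha, lt_of_le_of_ne hb (Ne.symm hx)⟩
    · rintro ⟨ha, hb⟩
      exact ⟨ha, le_of_lt (show 0 < x i from hb)⟩
  have e2 : volume (A \ {x | 0 ≤ x i}) = volume (A ∩ {x | 0 < x i}) := by
    rw [← (b2_refl_mp i).measure_preimage (hA.inter h1).nullMeasurableSet]
    congr 1
    ext x
    simp only [mem_diff, mem_setOf_eq, not_le, mem_preimage, mem_inter_iff, b2_refl_self,
      Left.neg_pos_iff]
    constructor
    · rintro ⟨ha, hb⟩
      exact ⟨h x ha, hb⟩
    · rintro ⟨ha, hb⟩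
      refine ⟨?_, hb⟩
      have := h _ ha
      have hh : b2_refl i (b2_refl i x) = x := by
        funext j
        by_cases hj : j = i
        · subst hj; rw [b2_refl_self, b2_refl_self, neg_neg]
        · rw [b2_refl_ne hj, b2_refl_ne hj]
      rwa [hh] at this
  rw [← measure_inter_add_diff A h0, e2, e1, two_mul]

theorem b2_volume {n : ℕ} {K : Set (Fin n → ℝ)} (hK : MeasurableSet K) (T : Finset (Fin n))
    (h : SI T K) : volume K = 2 ^ T.card * volume (pos T K) := by
  classical
  induction T using Finset.induction_on with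
  | empty => simp [pos]
  | insert i T hi ih =>
    have hT : SI T K := by
      intro x hx y h1 h2
      refine h x hx y (fun j hj => h1 j fun hj' => hj (Finset.mem_insert_of_mem hj')) ?_
      intro j hj
      by_cases hjT : j ∈ T
      · exact h2 j hjT
      · rw [h1 j hjT]
    rw [ih hT, b2_half (b2_measurable_pos hK T) i ?_, Finset.card_insert_of_notMem hi, pow_succ,
      mul_assoc]
    · congr 3
      ext x
      simp only [pos, mem_inter_iff, mem_setOf_eq, Finset.mem_insert, forall_eq_or_imp]
      tauto
    · rintro x ⟨hx, hp⟩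
      refine ⟨h x hx _ ?_ ?_, ?_⟩
      · intro j hj
        exact b2_refl_ne (fun e : j = i => hj (by rw [e]; exact Finset.mem_insert_self _ _)) x
      · intro j _
        by_cases hj : j = i
        · subst hj; rw [b2_refl_self, abs_neg]
        · rw [b2_refl_ne hj]
      · intro j hj
        rw [b2_refl_ne (fun e : j = i => hi (by rw [← e]; exact hj))]
        exact hp j hj

theorem vol_eq_pos {n : ℕ} {K : Set (Fin n → ℝ)} (hK : MeasurableSet K) (_hf : volume K ≠ ⊤)
    {T : Finset (Fin n)} (h : SI T K) : vol K = 2 ^ T.card * vol (pos T K) := by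
  unfold vol
  rw [b2_volume hK T h, ENNReal.toReal_mul, ENNReal.toReal_pow]
  simp

end Vale.Agent.P248.H432.S
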