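import Vale.Agent.P248.H432.S.Spec

/-!
P248: polar bodies of convex bodies with sign symmetries.
-/

open MeasureTheory Set

namespace Vale.Agent.P248.H432.S

open Vale.Agent.P248.H242 (ins sec)

theorem b3b_bound {n : ℕ} {K : Set (Fin n → ℝ)} (hK : IsCompact K) :
    ∃ R : ℝ, 0 < R ∧ ∀ x ∈ K, ∀ i, |x i| ≤ R := by
  obtain ⟨R, hR⟩ := hK.isBounded.exists_norm_le
  refine ⟨|R| + 1, by positivity, fun x hx i => ?_⟩
  have h1 : |x i| ≤ ‖x‖ := by
    have := norm_le_pi_norm x i
    rwa [Real.norm_eq_abs] at this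
  linarith [hR x hx, le_abs_self R]

theorem b3b_inner {n : ℕ} {K : Set (Fin n → ℝ)} (hK : (0 : Fin n → ℝ) ∈ interior K) :
    ∃ r : ℝ, 0 < r ∧ ∀ x : Fin n → ℝ, (∀ i, |x i| ≤ r) → x ∈ K := by
  rw [mem_interior_iff_mem_nhds, Metric.mem_nhds_iff] at hK
  obtain ⟨e, he, h⟩ := hK
  refine ⟨e / 2, by positivity, fun x hx => h ?_⟩
  rw [Metric.mem_ball, dist_zero_right]
  have h1 : ‖x‖ ≤ e / 2 := by
    rw [pi_norm_le_iff_of_nonneg (by positivity)]
    intro i
    rw [Real.norm_eq_abs]
    exact hx i
  linarith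

theorem BB.po {n : ℕ} {K : Set (Fin n → ℝ)} (hK : BB K) : BB (po K) := by
  obtain ⟨R, hR, hRK⟩ := b3b_bound hK.cpt
  obtain ⟨r, hr, hrK⟩ := b3b_inner hK.nhd
  have hcl : IsClosed (S.po K) := by
    have e : S.po K = ⋂ x ∈ K, {y | ∑ i, x i * y i ≤ 1} := by
      ext y
      simp [S.po]
    rw [e]
    refine isClosed_iInter fun x => isClosed_iInter fun _ => ?_
    exact isClosed_le (by fun_prop) continuous_const
  refine ⟨?_, ?_, ?_⟩
  · refine Metric.isCompact_of_isClosed_isBounded hcl ?_
    rw [isBounded_iff_forall_norm_le]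
    refine ⟨1 / r, fun y hy => ?_⟩
    rw [pi_norm_le_iff_of_nonneg (by positivity)]
    intro i
    rw [Real.norm_eq_abs]
    have key : ∀ s : ℝ, |s| ≤ r → s * y i ≤ 1 := by
      intro s hs
      have h1 : (Pi.single i s : Fin n → ℝ) ∈ K := by
        refine hrK _ fun j => ?_
        rcases eq_or_ne j i with rfl | hj
        · simpa using hs
        · rw [Pi.single_eq_of_ne hj]
          simpa using hr.le
      have h2 := hy _ h1
      have e : ∑ j, (Pi.single i s : Fin n → ℝ) j * y j = s * y i := by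
        rw [Finset.sum_eq_single i]
        · simp
        · intro j _ hj
          rw [Pi.single_eq_of_ne hj, zero_mul]
        · intro h
          exact absurd (Finset.mem_univ i) h
      linarith
    have h1 := key r (by rw [abs_of_pos hr])
    have h2 := key (-r) (by rw [abs_neg, abs_of_pos hr])
    rw [abs_le, le_div_iff₀ hr, neg_le, ← neg_le_neg_iff, neg_neg]
    constructor
    · have h3 : -y i * r ≤ 1 := by linarith
      rw [← le_div_iff₀ hr] at h3
      linarith
    · linarith
  · rintro x hx y hy a b ha hb hab z hz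
    have e : ∑ i, z i * (a • x + b • y) i = a * ∑ i, z i * x i + b * ∑ i, z i * y i := by
      rw [Finset.mul_sum, Finset.mul_sum, ← Finset.sum_add_distrib]
      refine Finset.sum_congr rfl fun i _ => ?_
      simp only [Pi.add_apply, Pi.smul_apply, smul_eq_mul]
      ring
    rw [e]
    have h1 := mul_le_mul_of_nonneg_left (hx z hz) ha
    have h2 := mul_le_mul_of_nonneg_left (hy z hz) hb
    linarith
  · rw [mem_interior_iff_mem_nhds, Metric.mem_nhds_iff]
    refine ⟨1 / (((n : ℝ) + 1) * R), by positivity, fun y hy x hx => ?_⟩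
    rw [Metric.mem_ball, dist_zero_right] at hy
    have h1 : ∀ i, x i * y i ≤ R * (1 / (((n : ℝ) + 1) * R)) := by
      intro i
      have h2 : |y i| ≤ 1 / (((n : ℝ) + 1) * R) := by
        have := norm_le_pi_norm y i
        rw [Real.norm_eq_abs] at this
        linarith
      calc x i * y i ≤ |x i * y i| := le_abs_self _
        _ = |x i| * |y i| := abs_mul _ _
        _ ≤ R * (1 / (((n : ℝ) + 1) * R)) :=
          mul_le_mul (hRK x hx i) h2 (abs_nonneg _) hR.le
    refine (Finset.sum_le_sum fun i _ => h1 i).trans ?_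
    rw [Finset.sum_const, Finset.card_univ, Fintype.card_fin, nsmul_eq_mul]
    have e : (n : ℝ) * (R * (1 / (((n : ℝ) + 1) * R))) = n / (n + 1) := by
      field_simp
    rw [e, div_le_one (by positivity)]
    linarith

theorem SI.po {n : ℕ} {T : Finset (Fin n)} {K : Set (Fin n → ℝ)} (h : SI T K) :
    SI T (po K) := by
  intro y hy y' h1 h2 x hx
  have h3 : (fun i => if y' i = y i then x i else -x i) ∈ K := by
    refine h x hx _ (fun i hi => ?_) fun i hi => ?_
    · simp only [h1 i hi, if_true]
    · split_ifs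
      · rfl
      · exact abs_neg _
  have h4 := hy _ h3
  refine le_trans (le_of_eq (Finset.sum_congr rfl fun i _ => ?_)) h4
  split_ifs with h5
  · rw [h5]
  · have hi : i ∈ T := by
      by_contra hi
      exact h5 (h1 i hi)
    rcases abs_eq_abs.1 (h2 i hi) with h6 | h6
    · exact absurd h6 h5
    · rw [h6]
      ring

theorem b3b_proj {n : ℕ} {T : Finset (Fin (n + 1))} {K : Set (Fin (n + 1) → ℝ)} (hK : BB K)
    (h : SI T K) {i : Fin (n + 1)} (hi : i ∈ T) {x : Fin (n + 1) → ℝ} (hx : x ∈ K) :
    (fun j => x (i.succAbove j)) ∈ sec i K := by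
  have h1 : Function.update x i (-x i) ∈ K := by
    refine h x hx _ (fun j hj => ?_) fun j _ => ?_
    · rw [Function.update_of_ne]
      rintro rfl
      exact hj hi
    · rcases eq_or_ne j i with rfl | hj
      · rw [Function.update_self, abs_neg]
      · rw [Function.update_of_ne hj]
  have h2 := hK.cvx hx h1 (a := 1 / 2) (b := 1 / 2) (by norm_num) (by norm_num) (by norm_num)
  have e : (1 / 2 : ℝ) • x + (1 / 2 : ℝ) • Function.update x i (-x i)
      = ins i (fun j => x (i.succAbove j)) := by
    funext k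
    simp only [Pi.add_apply, Pi.smul_apply, smul_eq_mul]
    rcases Fin.eq_self_or_eq_succAbove i k with rfl | ⟨j, rfl⟩
    · rw [Function.update_self, Vale.Agent.P248.H242.ins_self]
      ring
    · rw [Function.update_of_ne (Fin.succAbove_ne i j), Vale.Agent.P248.H242.ins_succ]
      ring
  rw [e] at h2
  exact h2

theorem sec_po {n : ℕ} {T : Finset (Fin (n + 1))} {K : Set (Fin (n + 1) → ℝ)} (hK : BB K)
    (h : SI T K) {i : Fin (n + 1)} (hi : i ∈ T) : sec i (po K) = po (sec i K) := by
  ext y
  constructor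
  · intro hy x hx
    have h1 := hy (ins i x) hx
    rw [Vale.Agent.P248.H242.sum_ins] at h1
    refine le_trans (le_of_eq (Finset.sum_congr rfl fun j _ => ?_)) h1
    rw [Vale.Agent.P248.H242.ins_succ]
  · intro hy x hx
    rw [Vale.Agent.P248.H242.sum_ins]
    exact hy _ (b3b_proj hK h hi hx)

end Vale.Agent.P248.H432.S
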