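import Vale.Agent.P248.H432.S.Spec

/-!
P248: coordinate sections of bodies with sign symmetries.
-/

open MeasureTheory Set

namespace Vale.Agent.P248.H432.S

open Vale.Agent.P248.H242 (ins sec)

theorem card_del {n : ℕ} {i : Fin (n + 1)} {T : Finset (Fin (n + 1))} (hi : i ∈ T) :
    (del i T).card + 1 = T.card := by
  classical
  have h1 : (del i T).image i.succAbove = T.erase i := by
    ext x
    simp only [del, Finset.mem_image, Finset.mem_filter, Finset.mem_univ, true_and,
      Finset.mem_erase]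
    constructor
    · rintro ⟨j, hj, rfl⟩
      exact ⟨Fin.succAbove_ne i j, hj⟩
    · rintro ⟨hx, hT⟩
      obtain ⟨j, rfl⟩ := Fin.exists_succAbove_eq hx
      exact ⟨j, hT, rfl⟩
  have h2 : ((del i T).image i.succAbove).card = (del i T).card :=
    Finset.card_image_of_injective _ Fin.succAbove_right_injective
  rw [← h2, h1]
  exact Finset.card_erase_add_one hi

theorem b3_mem_sec {n : ℕ} {i : Fin (n + 1)} {K : Set (Fin (n + 1) → ℝ)} {z : Fin n → ℝ} :
    z ∈ sec i K ↔ ins i z ∈ K := Iff.rfl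

theorem b3_cont_ins {n : ℕ} (i : Fin (n + 1)) : Continuous (ins i : (Fin n → ℝ) → _) := by
  refine continuous_pi fun j => ?_
  rcases eq_or_ne j i with rfl | hj
  · simp only [H242.ins_self]
    exact continuous_const
  · obtain ⟨l, rfl⟩ := Fin.exists_succAbove_eq hj
    simp only [H242.ins_succ]
    exact continuous_apply l

theorem b3_ins_zero {n : ℕ} (i : Fin (n + 1)) : ins i (0 : Fin n → ℝ) = 0 := by
  funext j
  rcases eq_or_ne j i with rfl | hj
  · simp [H242.ins_self]
  · obtain ⟨l, rfl⟩ := Fin.exists_succAbove_eq hj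
    simp [H242.ins_succ]

theorem b3_ins_comb {n : ℕ} (i : Fin (n + 1)) (a b : ℝ) (x y : Fin n → ℝ) :
    ins i (a • x + b • y) = a • ins i x + b • ins i y := by
  funext j
  rcases eq_or_ne j i with rfl | hj
  · simp [H242.ins_self]
  · obtain ⟨l, rfl⟩ := Fin.exists_succAbove_eq hj
    simp [H242.ins_succ]

theorem b3_abs {n : ℕ} {i : Fin (n + 1)} {z : Fin n → ℝ} {c : ℝ} (hc : 0 ≤ c)
    (h : ∀ j, |z j| ≤ c) (j : Fin (n + 1)) : |ins i z j| ≤ c := by
  rcases eq_or_ne j i with rfl | hj
  · simpa [H242.ins_self] using hc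
  · obtain ⟨l, rfl⟩ := Fin.exists_succAbove_eq hj
    simpa [H242.ins_succ] using h l

theorem sec_pos {n : ℕ} (i : Fin (n + 1)) (T : Finset (Fin (n + 1))) (K : Set (Fin (n + 1) → ℝ)) :
    sec i (pos T K) = pos (del i T) (sec i K) := by
  ext z
  constructor
  · rintro ⟨h1, h2⟩
    refine ⟨h1, fun j hj => ?_⟩
    have h3 : i.succAbove j ∈ T := by simpa [del] using hj
    have h4 := h2 _ h3
    rwa [H242.ins_succ] at h4
  · rintro ⟨h1, h2⟩
    refine ⟨h1, fun j hj => ?_⟩
    rcases eq_or_ne j i with rfl | hji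
    · rw [H242.ins_self]
    · obtain ⟨l, rfl⟩ := Fin.exists_succAbove_eq hji
      rw [H242.ins_succ]
      exact h2 l (by simpa [del] using hj)

theorem BB.sec {n : ℕ} {K : Set (Fin (n + 1) → ℝ)} (hK : BB K) (i : Fin (n + 1)) :
    BB (sec i K) := by
  have hcl : IsClosed (H242.sec i K) := hK.cpt.isClosed.preimage (b3_cont_ins i)
  refine ⟨?_, ?_, ?_⟩
  · refine Metric.isCompact_of_isClosed_isBounded hcl ?_
    obtain ⟨R, hR⟩ := hK.cpt.isBounded.exists_norm_le
    rw [isBounded_iff_forall_norm_le]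
    refine ⟨|R|, fun z hz => ?_⟩
    rw [pi_norm_le_iff_of_nonneg (abs_nonneg R)]
    intro j
    have h1 := hR _ hz
    have h2 := norm_le_pi_norm (ins i z) (i.succAbove j)
    rw [H242.ins_succ] at h2
    exact h2.trans (h1.trans (le_abs_self R))
  · intro x hx y hy a b ha hb hab
    have h := hK.cvx hx hy ha hb hab
    rw [← b3_ins_comb] at h
    exact h
  · rw [mem_interior_iff_mem_nhds]
    have h := hK.nhd
    rw [mem_interior_iff_mem_nhds] at h
    have h1 : Filter.Tendsto (ins i : (Fin n → ℝ) → _) (nhds 0) (nhds 0) := by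
      have h2 := (b3_cont_ins i).tendsto (0 : Fin n → ℝ)
      rwa [b3_ins_zero] at h2
    exact h1 h

theorem SI.sec {n : ℕ} {T : Finset (Fin (n + 1))} {K : Set (Fin (n + 1) → ℝ)} (h : SI T K)
    (i : Fin (n + 1)) : SI (del i T) (sec i K) := by
  intro x hx y h1 h2
  refine h _ hx (ins i y) (fun j hj => ?_) fun j hj => ?_
  · rcases eq_or_ne j i with rfl | hji
    · rw [H242.ins_self, H242.ins_self]
    · obtain ⟨l, rfl⟩ := Fin.exists_succAbove_eq hji
      rw [H242.ins_succ, H242.ins_succ]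
      exact h1 l (by simpa [del] using hj)
  · rcases eq_or_ne j i with rfl | hji
    · rw [H242.ins_self, H242.ins_self]
    · obtain ⟨l, rfl⟩ := Fin.exists_succAbove_eq hji
      rw [H242.ins_succ, H242.ins_succ]
      exact h2 l (by simpa [del] using hj)

end Vale.Agent.P248.H432.S
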