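import Vale.Agent.P248.H432.S.Cell
import Vale.Agent.P248.H432.S.Orth
import Vale.Agent.P248.H432.S.Sect
import Vale.Agent.P248.H432.S.Pol

/-! P248: the recursion for bodies invariant under sign changes. -/

open MeasureTheory Set

namespace Vale.Agent.P248.H432.S

open Vale.Agent.P248.H242 (ins sec)

theorem vol_nonneg {n : ℕ} (K : Set (Fin n → ℝ)) : 0 ≤ vol K := ENNReal.toReal_nonneg

theorem BB.vol_pos {n : ℕ} {K : Set (Fin n → ℝ)} (hK : BB K) : 0 < vol K := by
  refine ENNReal.toReal_pos ?_ hK.cpt.measure_lt_top.ne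
  have h1 : 0 < volume (interior K) := isOpen_interior.measure_pos volume ⟨0, hK.nhd⟩
  exact (h1.trans_le (measure_mono interior_subset)).ne'

/-- the cone inequality for bodies with sign changes -/
theorem cone {n : ℕ} {T : Finset (Fin (n + 1))} {K : Set (Fin (n + 1) → ℝ)} (hK : BB K)
    (h : SI T K) {x : Fin (n + 1) → ℝ} (hx : x ∈ K) :
    ∑ i ∈ T, |x i| * vol (sec i K) ≤ ((n : ℝ) + 1) / 2 * vol K := by
  obtain ⟨x', hx'⟩ : ∃ x' : Fin (n + 1) → ℝ, x' = fun i => if i ∈ T then |x i| else x i := ⟨_, rfl⟩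
  have h1 : x' ∈ pos T K := by
    refine ⟨h x hx x' (fun i hi => by simp [hx', hi]) (fun i hi => by simp [hx', hi]), ?_⟩
    intro i hi
    simp [hx', hi]
  have hcl : IsClosed {x : Fin (n + 1) → ℝ | ∀ i ∈ T, 0 ≤ x i} := by
    have e : {x : Fin (n + 1) → ℝ | ∀ i ∈ T, 0 ≤ x i} = ⋂ i ∈ T, {x | 0 ≤ x i} := by
      ext x
      simp
    rw [e]
    exact isClosed_biInter fun i _ => isClosed_le continuous_const (continuous_apply i)
  have hcv : Convex ℝ {x : Fin (n + 1) → ℝ | ∀ i ∈ T, 0 ≤ x i} := by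
    intro u hu v hv s t hs ht _ i hi
    have h1 := hu i hi
    have h2 := hv i hi
    simp only [Pi.add_apply, Pi.smul_apply, smul_eq_mul]
    positivity
  have h2 := cell_sum (hK.cpt.inter_right hcl) (hK.cvx.inter hcv) (T := T)
    (fun x hx => hx.2) h1
  have h3 : vol K = 2 ^ T.card * vol (pos T K) :=
    vol_eq_pos hK.cpt.measurableSet hK.cpt.measure_lt_top.ne h
  have h4 : ∀ i ∈ T, |x i| * vol (sec i K) = 2 ^ T.card / 2 * (x' i * vol (sec i (pos T K))) := by
    intro i hi
    have h5 := vol_eq_pos (hK.sec i).cpt.measurableSet (hK.sec i).cpt.measure_lt_top.ne (h.sec i)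
    rw [h5, sec_pos, ← card_del hi, hx']
    simp only [hi, if_true]
    ring
  rw [Finset.sum_congr rfl h4, ← Finset.mul_sum, h3]
  have h6 : (0 : ℝ) ≤ 2 ^ T.card / 2 := by positivity
  have h7 := mul_le_mul_of_nonneg_left h2 h6
  refine h7.trans (le_of_eq ?_)
  show 2 ^ T.card / 2 * (((n : ℝ) + 1) * vol (pos T K)) = _
  ring

/-- the recursion -/
theorem step {n : ℕ} {T : Finset (Fin (n + 1))} {K : Set (Fin (n + 1) → ℝ)} (hK : BB K)
    (h : SI T K) :
    ∑ i ∈ T, vol (sec i K) * vol (po (sec i K)) ≤ (((n : ℝ) + 1) / 2) ^ 2 * (vol K * vol (po K)) := by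
  have hV := hK.vol_pos
  have hP := hK.po
  have hW := hP.vol_pos
  have hN : (0 : ℝ) < ((n : ℝ) + 1) / 2 := by positivity
  obtain ⟨a, ha⟩ : ∃ a : Fin (n + 1) → ℝ, a = fun i =>
      if i ∈ T then vol (sec i K) / (((n : ℝ) + 1) / 2 * vol K) else 0 := ⟨_, rfl⟩
  have ha0 : ∀ i, 0 ≤ a i := by
    intro i
    rw [ha]
    have := vol_nonneg (sec i K)
    simp only
    split_ifs
    · positivity
    · exact le_rfl
  have haP : a ∈ po K := by
    intro x hx
    have h1 := cone hK h hx
    have h2 : ∑ i, x i * a i ≤ ∑ i ∈ T, |x i| * vol (sec i K) / (((n : ℝ) + 1) / 2 * vol K) := by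
      have e : ∑ i, x i * a i = ∑ i ∈ T, x i * a i := by
        symm
        refine Finset.sum_subset (Finset.subset_univ _) fun i _ hi => ?_
        rw [ha]
        simp [hi]
      rw [e]
      refine Finset.sum_le_sum fun i hi => ?_
      rw [mul_div_assoc]
      have e2 : a i = vol (sec i K) / (((n : ℝ) + 1) / 2 * vol K) := by
        rw [ha]
        simp [hi]
      rw [← e2]
      exact mul_le_mul_of_nonneg_right (le_abs_self _) (ha0 i)
    refine h2.trans ?_
    rw [← Finset.sum_div, div_le_one (by positivity)]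
    exact h1
  have h2 := cone hP h.po haP
  have h3 : ∀ i ∈ T, |a i| * vol (sec i (po K)) =
      vol (sec i K) * vol (po (sec i K)) / (((n : ℝ) + 1) / 2 * vol K) := by
    intro i hi
    rw [abs_of_nonneg (ha0 i), sec_po hK h hi, ha]
    simp only [hi, if_true]
    ring
  rw [Finset.sum_congr rfl h3, ← Finset.sum_div, div_le_iff₀ (by positivity)] at h2
  linarith [show ((n : ℝ) + 1) / 2 * vol (po K) * (((n : ℝ) + 1) / 2 * vol K) =
    (((n : ℝ) + 1) / 2) ^ 2 * (vol K * vol (po K)) by ring]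

/-- **the inequality for bodies with sign changes** -/
theorem core {m : ℕ} {β : ℝ} (H : ∀ L : Set (Fin m → ℝ), BB L → β ≤ vol L * vol (po L)) :
    ∀ (d : ℕ) {T : Finset (Fin (m + d))} {K : Set (Fin (m + d) → ℝ)}, BB K → SI T K →
      d ≤ T.card → β * 4 ^ d * (T.card.descFactorial d : ℝ) *
        ((m.factorial : ℝ) / ((m + d).factorial : ℝ)) ^ 2 ≤ vol K * vol (po K) := by
  intro d
  induction d with
  | zero =>
    intro T K hK _ _
    have hf : (m.factorial : ℝ) ≠ 0 := by positivity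
    have h1 := H K hK
    simpa [hf] using h1
  | succ d ih =>
    intro T K hK h hd
    obtain ⟨c, hc⟩ : ∃ c, T.card = c + 1 := ⟨T.card - 1, by omega⟩
    have h1 := step (n := m + d) hK h
    have h2 : ∀ i ∈ T, β * 4 ^ d * (c.descFactorial d : ℝ) *
        ((m.factorial : ℝ) / ((m + d).factorial : ℝ)) ^ 2 ≤
        vol (sec (n := m + d) i K) * vol (po (sec (n := m + d) i K)) := by
      intro i hi
      have h3 := card_del (n := m + d) hi
      have h4 : (del (n := m + d) i T).card = c := by omega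
      have h5 := ih (hK.sec (n := m + d) i) (h.sec (n := m + d) i) (by omega)
      rw [h4] at h5
      exact h5
    have h3 := (Finset.sum_le_sum h2).trans h1
    rw [Finset.sum_const, nsmul_eq_mul, hc] at h3
    have hf : (0 : ℝ) < ((m + d).factorial : ℝ) := by positivity
    have hN : (0 : ℝ) < ((m + d : ℕ) : ℝ) + 1 := by positivity
    have h6 : ((m + (d + 1)).factorial : ℝ) = (((m + d : ℕ) : ℝ) + 1) * ((m + d).factorial : ℝ) := by
      rw [← Nat.add_assoc, Nat.factorial_succ]
      push_cast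
      ring
    rw [h6, hc, Nat.succ_descFactorial_succ]
    have h7 : (0 : ℝ) < ((((m + d : ℕ) : ℝ) + 1) / 2) ^ 2 := by positivity
    refine le_of_mul_le_mul_left ?_ h7
    refine le_trans (le_of_eq ?_) h3
    push_cast
    field_simp
    ring

end Vale.Agent.P248.H432.S
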