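import Mathlib

/-!
P248: bodies invariant under the sign changes of some of the coordinates: the numerical
inequalities.
-/

namespace Vale.Agent.P248.H432.S

theorem b6_step (m : ℕ) (hm : 1 ≤ m) :
    ((m : ℝ) + 1) ^ (m + 1) ≤ ((m : ℝ) + 1) * Real.exp 1 * (m : ℝ) ^ m := by
  have hm' : (0:ℝ) < m := by exact_mod_cast hm
  have h1 : (1 + 1 / (m:ℝ)) ^ m ≤ Real.exp 1 := by
    have := Real.add_one_le_exp (1 / (m:ℝ))
    calc (1 + 1 / (m:ℝ)) ^ m ≤ (Real.exp (1 / (m:ℝ))) ^ m := by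
          apply pow_le_pow_left₀ (by positivity); linarith
      _ = Real.exp 1 := by
          rw [← Real.exp_nat_mul]; congr 1; field_simp
  have h2 : (m:ℝ) * (1 + 1 / m) = (m:ℝ) + 1 := by field_simp
  calc ((m : ℝ) + 1) ^ (m + 1) = ((m:ℝ)+1) * ((m:ℝ)+1)^m := by rw [pow_succ]; ring
    _ = ((m:ℝ) + 1) * ((m:ℝ)^m * (1 + 1/(m:ℝ))^m) := by rw [← mul_pow, h2]
    _ ≤ ((m:ℝ) + 1) * ((m:ℝ)^m * Real.exp 1) := by gcongr
    _ = _ := by ring

theorem num1 {n : ℕ} (h : 5 ≤ n) :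
    ((n : ℝ) + 1) ^ (n + 1) < 2 * 4 ^ n * ((n - 1).factorial : ℝ) := by
  induction n, h using Nat.le_induction with
  | base => norm_num [Nat.factorial]
  | succ n hn ih =>
    obtain ⟨k, rfl⟩ : ∃ k, n = k + 1 := ⟨n - 1, by omega⟩
    have h1 := b6_step (k + 1 + 1) (by omega)
    have he := Real.exp_one_lt_d9
    have hk : (4:ℝ) ≤ k := by
      have : 4 ≤ k := by omega
      exact_mod_cast this
    have h3 : k + 1 + 1 - 1 = k + 1 := by omega
    have h4 : k + 1 - 1 = k := by omega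
    rw [h3, Nat.factorial_succ]
    rw [h4] at ih
    push_cast at ih h1 ⊢
    have hf : (0:ℝ) < (k.factorial : ℝ) := by exact_mod_cast Nat.factorial_pos k
    calc ((k:ℝ) + 1 + 1 + 1) ^ (k + 1 + 1 + 1)
        ≤ ((k:ℝ) + 1 + 1 + 1) * Real.exp 1 * ((k:ℝ) + 1 + 1) ^ (k + 1 + 1) := h1
      _ < ((k:ℝ) + 1 + 1 + 1) * Real.exp 1 * (2 * 4 ^ (k + 1) * (k.factorial : ℝ)) := by
          gcongr
      _ ≤ (4 * ((k:ℝ) + 1)) * (2 * 4 ^ (k + 1) * (k.factorial : ℝ)) := by
          have : ((k:ℝ) + 1 + 1 + 1) * Real.exp 1 ≤ 4 * ((k:ℝ) + 1) := by nlinarith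
          gcongr
      _ = 2 * 4 ^ (k + 1 + 1) * (((k:ℝ) + 1) * (k.factorial : ℝ)) := by ring

theorem num2 {n : ℕ} (h : 14 ≤ n) :
    ((n : ℝ) + 1) ^ (n + 1) < 4 ^ (n + 1) * ((n - 2).factorial : ℝ) := by
  induction n, h using Nat.le_induction with
  | base => norm_num [Nat.factorial]
  | succ n hn ih =>
    obtain ⟨k, rfl⟩ : ∃ k, n = k + 2 := ⟨n - 2, by omega⟩
    have h1 := b6_step (k + 2 + 1) (by omega)
    have he := Real.exp_one_lt_d9
    have hk : (12:ℝ) ≤ k := by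
      have : 12 ≤ k := by omega
      exact_mod_cast this
    have h3 : k + 2 + 1 - 2 = k + 1 := by omega
    have h4 : k + 2 - 2 = k := by omega
    rw [h3, Nat.factorial_succ]
    rw [h4] at ih
    push_cast at ih h1 ⊢
    have hf : (0:ℝ) < (k.factorial : ℝ) := by exact_mod_cast Nat.factorial_pos k
    calc ((k:ℝ) + 2 + 1 + 1) ^ (k + 2 + 1 + 1)
        ≤ ((k:ℝ) + 2 + 1 + 1) * Real.exp 1 * ((k:ℝ) + 2 + 1) ^ (k + 2 + 1) := h1
      _ < ((k:ℝ) + 2 + 1 + 1) * Real.exp 1 * (4 ^ (k + 2 + 1) * (k.factorial : ℝ)) := by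
          gcongr
      _ ≤ (4 * ((k:ℝ) + 1)) * (4 ^ (k + 2 + 1) * (k.factorial : ℝ)) := by
          have : ((k:ℝ) + 2 + 1 + 1) * Real.exp 1 ≤ 4 * ((k:ℝ) + 1) := by nlinarith
          gcongr
      _ = 4 ^ (k + 2 + 1 + 1) * (((k:ℝ) + 1) * (k.factorial : ℝ)) := by ring

theorem b6_exp : 11 * Real.exp (227 / 20) ≤ 9 / 10 * 4 ^ 10 := by
  have he := Real.exp_one_lt_d9
  have h0 : (0:ℝ) < Real.exp 1 := Real.exp_pos 1
  have h7 : Real.exp (7 / 20) ≤ 71 / 50 := by
    by_contra hc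
    push Not at hc
    have h1 : (71 / 50 : ℝ) ^ 20 < (Real.exp (7 / 20)) ^ 20 := by gcongr
    have h2 : (Real.exp (7 / 20)) ^ 20 = Real.exp 1 ^ 7 := by
      rw [← Real.exp_nat_mul, ← Real.exp_nat_mul]; congr 1; norm_num
    have h3 : Real.exp 1 ^ 7 ≤ (2.7182818286 : ℝ) ^ 7 := by gcongr
    rw [h2] at h1
    have h4 : (2.7182818286 : ℝ) ^ 7 < (71 / 50 : ℝ) ^ 20 := by norm_num
    linarith
  have h11 : Real.exp 11 ≤ (2.7182818286 : ℝ) ^ 11 := by
    have : Real.exp 11 = Real.exp 1 ^ 11 := by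
      rw [← Real.exp_nat_mul]; congr 1; norm_num
    rw [this]; gcongr
  have hs : Real.exp (227 / 20) = Real.exp 11 * Real.exp (7 / 20) := by
    rw [← Real.exp_add]; congr 1; norm_num
  rw [hs]
  calc 11 * (Real.exp 11 * Real.exp (7 / 20))
      ≤ 11 * ((2.7182818286 : ℝ) ^ 11 * (71 / 50)) := by gcongr
    _ ≤ 9 / 10 * 4 ^ 10 := by norm_num

theorem b6_exp6 : (4096 * (81 / 100) : ℝ) < 9 * Real.exp 6 := by
  have he := Real.exp_one_gt_d9
  have : Real.exp 6 = Real.exp 1 ^ 6 := by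
    rw [← Real.exp_nat_mul]; congr 1; norm_num
  rw [this]
  have h2 : (2.7182818283 : ℝ) ^ 6 ≤ Real.exp 1 ^ 6 := by gcongr
  have h3 : (4096 * (81 / 100) : ℝ) < 9 * (2.7182818283 : ℝ) ^ 6 := by norm_num
  linarith

/-- the case `p = 10 k + 4` -/
theorem b6_base (k : ℕ) :
    (((10 * k + 4 + k : ℕ) : ℝ) + 1) ^ (10 * k + 4 + k + 1) <
      Real.exp (-(7 / 20 * ((k : ℝ) + 1))) * ((k : ℝ) + 1) ^ (k + 1) * 4 ^ (10 * k + 4) *
        ((10 * k + 4).factorial : ℝ) := by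
  rcases Nat.eq_zero_or_pos k with rfl | hk
  · have h := Real.add_one_le_exp (-(7 / 20 * ((0:ℝ) + 1)))
    norm_num [Nat.factorial] at h ⊢
    linarith
  · have hk1 : (1:ℝ) ≤ k := by exact_mod_cast hk
    set P : ℝ := 10 * (k:ℝ) + 4 with hP
    set Q : ℝ := (k:ℝ) + 1 with hQ
    have hP0 : 0 < P := by positivity
    have hQ0 : 0 < Q := by positivity
    have hcast : (((10 * k + 4 : ℕ)) : ℝ) = P := by push_cast; rw [hP]
    have e1 : (((10 * k + 4 + k : ℕ) : ℝ) + 1) = P + Q := by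
      rw [hP, hQ]; push_cast; ring
    have hst := Stirling.le_factorial_stirling (10 * k + 4)
    rw [hcast] at hst
    rw [e1]
    -- first factor
    have f1 : (P + Q) ^ (10 * k + 4) ≤ P ^ (10 * k + 4) * Real.exp Q := by
      have hx : 1 + Q / P ≤ Real.exp (Q / P) := by
        have := Real.add_one_le_exp (Q / P); linarith
      have hx0 : 0 ≤ 1 + Q / P := by positivity
      calc (P + Q) ^ (10 * k + 4) = P ^ (10 * k + 4) * (1 + Q / P) ^ (10 * k + 4) := by
            rw [← mul_pow]; congr 1; field_simp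
        _ ≤ P ^ (10 * k + 4) * (Real.exp (Q / P)) ^ (10 * k + 4) := by gcongr
        _ = P ^ (10 * k + 4) * Real.exp Q := by
            rw [← Real.exp_nat_mul, hcast]; congr 2; field_simp
    -- second factor
    have f2 : (P + Q) ^ (k + 1) ≤ 11 ^ (k + 1) * Q ^ (k + 1) := by
      rw [← mul_pow]
      apply pow_le_pow_left₀ (by positivity)
      rw [hP, hQ]; linarith
    have f3 : (9:ℝ) < Real.sqrt (2 * Real.pi * P) := by
      apply Real.lt_sqrt_of_sq_lt
      have := Real.pi_gt_three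
      have hP14 : 14 ≤ P := by rw [hP]; linarith
      nlinarith
    have f4 : (P / Real.exp 1) ^ (10 * k + 4) = P ^ (10 * k + 4) * Real.exp (-P) := by
      rw [div_pow, ← Real.exp_nat_mul, hcast, mul_one, Real.exp_neg]; rfl
    rw [f4] at hst
    -- exponentials
    have f5 : Real.exp Q * 11 ^ (k + 1) <
        Real.exp (-(7 / 20 * Q)) * 4 ^ (10 * k + 4) * (9 * Real.exp (-P)) := by
      have g1 : (11 * Real.exp (227 / 20)) ^ (k + 1) ≤ (9 / 10 * 4 ^ 10 : ℝ) ^ (k + 1) := by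
        apply pow_le_pow_left₀ (by positivity) b6_exp
      have g2 : (11 * Real.exp (227 / 20)) ^ (k + 1)
          = 11 ^ (k + 1) * Real.exp (227 / 20 * Q) := by
        rw [mul_pow, ← Real.exp_nat_mul]; congr 2; rw [hQ]; push_cast; ring
      have g3 : (9 / 10 * 4 ^ 10 : ℝ) ^ (k + 1) = (9 / 10) ^ (k + 1) * 4 ^ (10 * k + 4) * 4096 := by
        rw [mul_pow, ← pow_mul]
        have : 10 * (k + 1) = 10 * k + 4 + 6 := by ring
        rw [this, pow_add (4:ℝ) (10 * k + 4) 6]; norm_num; ring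
      have g4 : ((9:ℝ) / 10) ^ (k + 1) ≤ 81 / 100 := by
        have : ((9:ℝ) / 10) ^ (k + 1) ≤ (9 / 10) ^ 2 :=
          pow_le_pow_of_le_one (by norm_num) (by norm_num) (by omega)
        calc _ ≤ _ := this
          _ = 81 / 100 := by norm_num
      rw [g2, g3] at g1
      have g5 : 11 ^ (k + 1) * Real.exp (227 / 20 * Q) < 9 * Real.exp 6 * 4 ^ (10 * k + 4) := by
        calc 11 ^ (k + 1) * Real.exp (227 / 20 * Q)
            ≤ (9 / 10) ^ (k + 1) * 4 ^ (10 * k + 4) * 4096 := g1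
          _ ≤ (81 / 100) * 4 ^ (10 * k + 4) * 4096 := by gcongr
          _ = (4096 * (81 / 100)) * 4 ^ (10 * k + 4) := by ring
          _ < 9 * Real.exp 6 * 4 ^ (10 * k + 4) := by
              have := b6_exp6
              gcongr
      -- multiply by exp(-(7/20 Q) - P)
      have g6 : Real.exp Q * 11 ^ (k + 1)
          = 11 ^ (k + 1) * Real.exp (227 / 20 * Q) * Real.exp (-(7 / 20 * Q) - P - 6) := by
        rw [mul_assoc, ← Real.exp_add, mul_comm]
        congr 2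
        rw [hP, hQ]; ring
      have g7 : Real.exp (-(7 / 20 * Q)) * 4 ^ (10 * k + 4) * (9 * Real.exp (-P))
          = 9 * Real.exp 6 * 4 ^ (10 * k + 4) * Real.exp (-(7 / 20 * Q) - P - 6) := by
        have : Real.exp (-(7 / 20 * Q)) * Real.exp (-P)
            = Real.exp 6 * Real.exp (-(7 / 20 * Q) - P - 6) := by
          rw [← Real.exp_add, ← Real.exp_add]; congr 1; ring
        calc Real.exp (-(7 / 20 * Q)) * 4 ^ (10 * k + 4) * (9 * Real.exp (-P))
            = 9 * 4 ^ (10 * k + 4) * (Real.exp (-(7 / 20 * Q)) * Real.exp (-P)) := by ring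
          _ = _ := by rw [this]; ring
      rw [g6, g7]
      have := Real.exp_pos (-(7 / 20 * Q) - P - 6)
      gcongr
    calc (P + Q) ^ (10 * k + 4 + k + 1) = (P + Q) ^ (10 * k + 4) * (P + Q) ^ (k + 1) := by
          rw [← pow_add]; congr 1
      _ ≤ (P ^ (10 * k + 4) * Real.exp Q) * (11 ^ (k + 1) * Q ^ (k + 1)) := by gcongr
      _ = (P ^ (10 * k + 4) * Q ^ (k + 1)) * (Real.exp Q * 11 ^ (k + 1)) := by ring
      _ < (P ^ (10 * k + 4) * Q ^ (k + 1)) *
            (Real.exp (-(7 / 20 * Q)) * 4 ^ (10 * k + 4) * (9 * Real.exp (-P))) := by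
          have : 0 < P ^ (10 * k + 4) * Q ^ (k + 1) := by positivity
          gcongr
      _ = Real.exp (-(7 / 20 * Q)) * Q ^ (k + 1) * 4 ^ (10 * k + 4) *
            (9 * (P ^ (10 * k + 4) * Real.exp (-P))) := by ring
      _ ≤ Real.exp (-(7 / 20 * Q)) * Q ^ (k + 1) * 4 ^ (10 * k + 4) *
            (Real.sqrt (2 * Real.pi * P) * (P ^ (10 * k + 4) * Real.exp (-P))) := by
          gcongr
      _ ≤ _ := by
          gcongr

theorem num3 {k p : ℕ} (h : 10 * k + 4 ≤ p) :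
    (((p + k : ℕ) : ℝ) + 1) ^ (p + k + 1) <
      Real.exp (-(7 / 20 * ((k : ℝ) + 1))) * ((k : ℝ) + 1) ^ (k + 1) * 4 ^ p *
        (p.factorial : ℝ) := by
  induction p, h using Nat.le_induction with
  | base => exact b6_base k
  | succ p hp ih =>
    have h1 := b6_step (p + k + 1) (by omega)
    have he := Real.exp_one_lt_d9
    have hp' : 10 * (k:ℝ) + 4 ≤ p := by exact_mod_cast hp
    have hk0 : (0:ℝ) ≤ k := Nat.cast_nonneg k
    have e1 : p + 1 + k + 1 = p + k + 1 + 1 := by ring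
    have e2 : (((p + 1 + k : ℕ) : ℝ) + 1) = ((p + k + 1 : ℕ) : ℝ) + 1 := by push_cast; ring
    have e3 : (((p + k : ℕ) : ℝ) + 1) = ((p + k + 1 : ℕ) : ℝ) := by push_cast; ring
    rw [e1, e2, Nat.factorial_succ]
    rw [e3] at ih
    have hf : (0:ℝ) < (p.factorial : ℝ) := by exact_mod_cast Nat.factorial_pos p
    set M : ℝ := ((p + k + 1 : ℕ) : ℝ) with hM
    have hM' : M = p + k + 1 := by rw [hM]; push_cast; ring
    set R : ℝ := Real.exp (-(7 / 20 * ((k : ℝ) + 1))) * ((k : ℝ) + 1) ^ (k + 1) * 4 ^ p *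
        (p.factorial : ℝ) with hR
    have hR0 : 0 < R := by positivity
    calc (M + 1) ^ (p + k + 1 + 1) ≤ (M + 1) * Real.exp 1 * M ^ (p + k + 1) := h1
      _ < (M + 1) * Real.exp 1 * R := by
          have : 0 < (M + 1) * Real.exp 1 := by positivity
          gcongr
      _ ≤ (4 * ((p:ℝ) + 1)) * R := by
          have : (M + 1) * Real.exp 1 ≤ 4 * ((p:ℝ) + 1) := by
            rw [hM']; nlinarith
          gcongr
      _ = _ := by
          rw [hR]; push_cast; ring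

end Vale.Agent.P248.H432.S
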