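import Vale.Agent.P248.H432.V4.Defs
import Vale.Agent.P248.H432.S.Core
import Vale.Agent.P248.H432.S.Num
import Vale.Agent.P248.H432.RotLaw
import Vale.Agent.P248.H917.Fib

/-! P248: the general Mahler conjecture for bodies with many sign changes. -/

set_option linter.unusedSectionVars false

open MeasureTheory Set

namespace Vale.Agent.P248.H432.S

open Vale.Agent.P248.H432.V4 (IsSignInv IsLarge)
open Vale.Agent.P248.H917 (Bd coords coords_body coords_eq vP_ge san near_sharp_at)

theorem po_eq {n : ℕ} (K : Set (Fin n → ℝ)) (z : Fin n → ℝ) :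
    po {x | x + z ∈ K} = polarP K z := by
  ext y
  simp only [po, polarP, mem_ofPred_eq]
  constructor
  · intro h x hx
    have h1 := h (x - z) (by rwa [sub_add_cancel])
    simpa using h1
  · intro h x hx
    have h1 := h (x + z) hx
    simpa using h1

theorem vol_translate {n : ℕ} (K : Set (Fin n → ℝ)) (z : Fin n → ℝ) :
    vol {x | x + z ∈ K} = vol K := by
  unfold vol
  congr 1
  exact measure_preimage_add_right volume z K

theorem vp_eq {n : ℕ} (K : Set (Fin n → ℝ)) (z : Fin n → ℝ) :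
    H917.vp K z = vol {x | x + z ∈ K} * vol (po {x | x + z ∈ K}) := by
  rw [vol_translate, po_eq]
  rfl

theorem vp_zero {n : ℕ} (K : Set (Fin n → ℝ)) : H917.vp K 0 = vol K * vol (po K) := by
  have h1 := vp_eq K 0
  have e : {x : Fin n → ℝ | x + 0 ∈ K} = K := by
    ext x
    simp
  rwa [e] at h1

theorem H_near (k : ℕ) (L : Set (Fin k → ℝ)) (hL : BB L) :
    Real.exp (-(7 / 20 * ((k : ℝ) + 1))) * (((k : ℝ) + 1) ^ (k + 1) / (k.factorial : ℝ) ^ 2) ≤
      vol L * vol (po L) := by
  rw [← vp_zero]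
  exact near_sharp_at ⟨hL.cvx, hL.cpt, ⟨0, hL.nhd⟩⟩ hL.nhd

theorem H_three (L : Set (Fin 3 → ℝ)) (hL : BB L) : 64 / 9 ≤ vol L * vol (po L) := by
  have h1 := stable_of_isConvexBody hL.cpt hL.cvx ⟨0, hL.nhd⟩ 0 hL.nhd
  have hd := defect_nonneg hL.cpt hL.cvx ⟨0, hL.nhd⟩
  have hm : 0 ≤ min (defect L / 2) da := le_min (by linarith) da_pos.le
  have h2 : ENNReal.ofReal (64 / 9) ≤ volume L * volume (polarP L 0) :=
    (ENNReal.ofReal_le_ofReal (by linarith only [hm])).trans h1
  rw [← vp_zero]
  unfold H917.vp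
  rw [← ENNReal.toReal_mul]
  have hb : BB (po L) := hL.po
  have e : po L = polarP L 0 := by
    have h3 := po_eq L 0
    have e : {x : Fin 3 → ℝ | x + 0 ∈ L} = L := by
      ext x
      simp
    rwa [e] at h3
  rw [e] at hb
  have h3 : volume L * volume (polarP L 0) ≠ ⊤ :=
    ENNReal.mul_ne_top hL.cpt.measure_lt_top.ne hb.cpt.measure_lt_top.ne
  exact (ENNReal.ofReal_le_iff_le_toReal h3).1 h2

theorem core_at {m : ℕ} {β : ℝ} (H : ∀ L : Set (Fin m → ℝ), BB L → β ≤ vol L * vol (po L))
    {d : ℕ} {T : Finset (Fin (m + d))} (hd : d ≤ T.card) {K : Set (Fin (m + d) → ℝ)} (hK : Bd K)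
    (hT : SI T K) {z : Fin (m + d) → ℝ} (hz : z ∈ interior K) :
    β * 4 ^ d * (T.card.descFactorial d : ℝ) *
        ((m.factorial : ℝ) / ((m + d).factorial : ℝ)) ^ 2 ≤ H917.vp K z := by
  obtain ⟨s, hs⟩ : ∃ s : Fin (m + d) → ℝ, s = fun i => if i ∈ T then -1 else 1 := ⟨_, rfl⟩
  have h1 : ∀ i, s i = 1 ∨ s i = -1 := by
    intro i
    rw [hs]
    simp only
    split_ifs
    · exact Or.inr rfl
    · exact Or.inl rfl
  have hinv : ∀ x ∈ K, Vale.Agent.P248.H917.flip s x ∈ K := by
    intro x hx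
    refine hT x hx _ (fun i hi => ?_) (fun i hi => ?_)
    · simp [Vale.Agent.P248.H917.flip, hs, hi]
    · simp [Vale.Agent.P248.H917.flip, hs, hi]
  obtain ⟨h2, h3⟩ := Vale.Agent.P248.H917.san h1 hK hinv hz
  obtain ⟨w, hw⟩ : ∃ w : Fin (m + d) → ℝ,
    w = fun i => 1 / 2 * (z i + Vale.Agent.P248.H917.flip s z i) := ⟨_, rfl⟩
  rw [← hw] at h2 h3
  have hw0 : ∀ i ∈ T, w i = 0 := by
    intro i hi
    rw [hw]
    simp [Vale.Agent.P248.H917.flip, hs, hi]
  refine le_trans ?_ h3
  rw [vp_eq]
  have hB : BB {x | x + w ∈ K} := by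
    have h4 := (Homeomorph.addRight w)
    refine ⟨?_, ?_, ?_⟩
    · exact (Homeomorph.addRight w).isCompact_preimage.2 hK.2.1
    · exact hK.1.translate_preimage_left w
    · have h5 := (Homeomorph.addRight w).preimage_interior K
      have h6 : (0 : Fin (m + d) → ℝ) ∈ (Homeomorph.addRight w) ⁻¹' interior K := by
        show (0 : Fin (m + d) → ℝ) + w ∈ interior K
        rwa [zero_add]
      rw [h5] at h6
      exact h6
  refine core H d hB ?_ hd
  intro x hx y hy1 hy2
  refine hT (x + w) hx (y + w) (fun i hi => ?_) (fun i hi => ?_)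
  · simp [hy1 i hi]
  · simp [hw0 i hi, hy2 i hi]

/-- lower bound for the volume product -/
theorem sign_lower {m : ℕ} {β : ℝ} (H : ∀ L : Set (Fin m → ℝ), BB L → β ≤ vol L * vol (po L))
    {n : ℕ} (hmn : m ≤ n) {T : Finset (Fin n)} (hd : n - m ≤ T.card) {K : Set (E n)}
    (hK : IsConvexBody K) (hT : IsSignInv T K) :
    ENNReal.ofReal (β * 4 ^ (n - m) * (T.card.descFactorial (n - m) : ℝ) *
      ((m.factorial : ℝ) / (n.factorial : ℝ)) ^ 2) ≤ volumeProduct K := by
  obtain ⟨d, rfl⟩ := Nat.exists_eq_add_of_le hmn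
  rw [Nat.add_sub_cancel_left] at hd ⊢
  obtain ⟨p, b, hb⟩ := hT
  refine vP_ge p b fun z hz => core_at H hd (coords_body p b hK) ?_ hz
  intro x hx y h1 h2
  rw [coords_eq] at hx ⊢
  refine hb _ hx _ (fun i hi => ?_) (fun i hi => ?_)
  · rw [frame_repr, frame_repr]
    exact h1 i hi
  · rw [frame_repr, frame_repr]
    exact h2 i hi

theorem one_lt_of {n : ℕ} {K : Set (E n)} {c : ℝ} (h : ENNReal.ofReal c ≤ volumeProduct K)
    (hc : simplexVal n < c) : 1 < mahlerRatio K := by
  unfold mahlerRatio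
  rw [ENNReal.lt_div_iff_mul_lt (Or.inl (ofReal_sv_ne_zero n)) (Or.inl ENNReal.ofReal_ne_top),
    one_mul]
  exact ((ENNReal.ofReal_lt_ofReal_iff ((simplexVal_pos n).trans hc)).2 hc).trans_le h

/-- **the general Mahler conjecture for bodies with many sign changes**, strict -/
theorem sign_big {n : ℕ} {K : Set (E n)} (hK : IsConvexBody K) {T : Finset (Fin n)}
    (hT : IsSignInv T K) (h : IsLarge T) : 1 < mahlerRatio K := by
  have hc : T.card ≤ n := by
    have := Finset.card_le_univ T
    rwa [Fintype.card_fin] at this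
  have hn : (0 : ℝ) < (n.factorial : ℝ) := by positivity
  rcases h with ⟨h1, h2⟩ | ⟨h1, h2⟩ | h1
  · refine one_lt_of (sign_lower H_three (by omega) (by omega) hK hT) ?_
    have h3 := num1 h2
    have h4 : T.card.descFactorial (n - 3) * 2 = (n - 1).factorial := by
      have h5 := Nat.factorial_mul_descFactorial (n := T.card) (k := n - 3) (by omega)
      have e : T.card - (n - 3) = 2 := by omega
      rw [e] at h5
      have e2 : T.card = n - 1 := by omega
      rw [e2] at h5 ⊢
      simpa [Nat.factorial, mul_comm] using h5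
    have h5 : (T.card.descFactorial (n - 3) : ℝ) * 2 = ((n - 1).factorial : ℝ) := by
      exact_mod_cast h4
    obtain ⟨j, hj⟩ : ∃ j, n = j + 3 := ⟨n - 3, by omega⟩
    have e : n - 3 = j := by omega
    rw [← h5, e] at h3
    rw [e]
    unfold simplexVal
    rw [div_pow, ← mul_div_assoc, div_lt_div_iff_of_pos_right (by positivity)]
    refine h3.trans_le (le_of_eq ?_)
    have e4 : (4 : ℝ) ^ n = 4 ^ j * 64 := by
      rw [hj, pow_add]
      norm_num
    rw [e4]
    norm_num [Nat.factorial]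
    ring
  · refine one_lt_of (sign_lower H_three (by omega) (by omega) hK hT) ?_
    have h3 := num2 h2
    have h4 : T.card.descFactorial (n - 3) = (n - 2).factorial := by
      have h5 := Nat.factorial_mul_descFactorial (n := T.card) (k := n - 3) (by omega)
      have e : T.card - (n - 3) = 1 := by omega
      rw [e] at h5
      have e2 : T.card = n - 2 := by omega
      rw [e2] at h5 ⊢
      simpa [Nat.factorial, mul_comm] using h5
    obtain ⟨j, hj⟩ : ∃ j, n = j + 3 := ⟨n - 3, by omega⟩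
    have e : n - 3 = j := by omega
    rw [← h4, e] at h3
    rw [e]
    unfold simplexVal
    rw [div_pow, ← mul_div_assoc, div_lt_div_iff_of_pos_right (by positivity)]
    refine h3.trans_le (le_of_eq ?_)
    have e4 : (4 : ℝ) ^ (n + 1) = 4 ^ j * 256 := by
      rw [hj]
      ring
    rw [e4]
    norm_num [Nat.factorial]
    ring
  · obtain ⟨k, hk⟩ : ∃ k, n = T.card + k := ⟨n - T.card, by omega⟩
    refine one_lt_of (sign_lower (H_near k) (by omega) (by omega) hK hT) ?_
    have h3 := num3 (k := k) (p := T.card) (by omega)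
    have e : n - k = T.card := by omega
    rw [e, Nat.descFactorial_self]
    rw [← hk] at h3
    have hkf : (0 : ℝ) < (k.factorial : ℝ) := by positivity
    unfold simplexVal
    rw [div_pow, ← mul_div_assoc, div_lt_div_iff_of_pos_right (by positivity)]
    refine h3.trans_le (le_of_eq ?_)
    field_simp

end Vale.Agent.P248.H432.S
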