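import Vale.Agent.P248.H242.AB

/-!
P248: bodies invariant under the sign changes of some of the coordinates: definitions.
-/

open MeasureTheory Set

namespace Vale.Agent.P248.H432.S

open Vale.Agent.P248.H242 (ins sec)

/-- convex bodies with `0` in the interior -/
structure BB {n : ℕ} (K : Set (Fin n → ℝ)) : Prop where
  cpt : IsCompact K
  cvx : Convex ℝ K
  nhd : (0 : Fin n → ℝ) ∈ interior K

/-- the polar body -/
def po {n : ℕ} (K : Set (Fin n → ℝ)) : Set (Fin n → ℝ) := {y | ∀ x ∈ K, ∑ i, x i * y i ≤ 1}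

/-- invariance under the sign changes of the coordinates in `T` -/
def SI {n : ℕ} (T : Finset (Fin n)) (K : Set (Fin n → ℝ)) : Prop :=
  ∀ x ∈ K, ∀ y : Fin n → ℝ, (∀ i, i ∉ T → y i = x i) → (∀ i ∈ T, |y i| = |x i|) → y ∈ K

/-- the part with nonnegative coordinates in `T` -/
def pos {n : ℕ} (T : Finset (Fin n)) (K : Set (Fin n → ℝ)) : Set (Fin n → ℝ) :=
  K ∩ {x | ∀ i ∈ T, 0 ≤ x i}

/-- the real volume -/
noncomputable def vol {n : ℕ} (K : Set (Fin n → ℝ)) : ℝ := (volume K).toReal

/-- the remaining coordinates -/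
def del {n : ℕ} (i : Fin (n + 1)) (T : Finset (Fin (n + 1))) : Finset (Fin n) :=
  Finset.univ.filter fun j => i.succAbove j ∈ T

end Vale.Agent.P248.H432.S
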